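import Vale.Agent.P131.Ops

/-!
P131: a nonscalar operator on a separable infinite-dimensional Hilbert space whose only closed
hyperinvariant subspaces are the trivial ones.
-/

theorem Vale.Agent.Results.P131.HyperinvariantDisproof.result :
    ∃ (H : Type) (_ : NormedAddCommGroup H) (_ : InnerProductSpace ℂ H) (_ : CompleteSpace H)
      (_ : TopologicalSpace.SeparableSpace H),
      ¬ FiniteDimensional ℂ H ∧
        ∃ T : H →L[ℂ] H, (∀ c : ℂ, T ≠ c • 1) ∧
          ∀ M : Submodule ℂ H, IsClosed (M : Set H) →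
            (∀ A : H →L[ℂ] H, A * T = T * A → ∀ x ∈ M, A x ∈ M) → M = ⊥ ∨ M = ⊤ :=
  ⟨Vale.Agent.P131.Hs, inferInstance, inferInstance, inferInstance, inferInstance,
    Vale.Agent.P131.infiniteDimensional, Vale.Agent.P131.T, Vale.Agent.P131.T_ne_scalar,
    fun _ hMc hM => Vale.Agent.P131.no_hyperinvariant hMc fun A hA => hM A hA⟩
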